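import Mathlib

/-! Statement of the homotopy hypothesis: globes, globular sums, coherators, models,
weak equivalences, disc functors. -/

open CategoryTheory Limits Opposite

noncomputable section

namespace Vale.Agent.P259

/-- Objects `D_n` of the globe category. -/
structure Glob where
  n : ℕ

/-- Morphisms of the globe category: identities, iterated sources (`face false`) and iterated
targets (`face true`). -/
inductive GHom : ℕ → ℕ → Type
  | id (n : ℕ) : GHom n n
  | face (b : Bool) {m n : ℕ} (h : m < n) : GHom m n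

/-- Composition in the globe category (diagrammatic order). -/
def GHom.cmp : {l m n : ℕ} → GHom l m → GHom m n → GHom l n
  | _, _, _, .id _, g => g
  | _, _, _, .face b h, .id _ => .face b h
  | _, _, _, .face b h, .face _ h' => .face b (h.trans h')

instance : SmallCategory Glob where
  Hom X Y := GHom X.n Y.n
  id X := .id X.n
  comp f g := f.cmp g
  id_comp _ := rfl
  comp_id := by rintro ⟨m⟩ ⟨n⟩ f; cases f <;> rfl
  assoc := by rintro ⟨a⟩ ⟨b⟩ ⟨c⟩ ⟨d⟩ f g h; cases f <;> cases g <;> cases h <;> rfl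

/-- The iterated source (`b = false`) or target (`b = true`) `D_m ⟶ D_n`. -/
def gface (b : Bool) {m n : ℕ} (h : m < n) : Glob.mk m ⟶ Glob.mk n := GHom.face b h

/-- Tables of dimensions, indexed by the dimension of the last disc. -/
inductive Tbl : ℕ → Type
  | base (i : ℕ) : Tbl i
  | snoc {l : ℕ} (T : Tbl l) (j i : ℕ) (h₁ : j < l) (h₂ : j < i) : Tbl i

/-- Gluing a disc `G i` to an object with a marked disc `G l`, along the iterated target of
dimension `j` of the marked disc and the iterated source of dimension `j` of the new disc. -/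
def glueStep {X : Type*} [Category X] [HasPushouts X] (G : Glob ⥤ X) {l j i : ℕ} (h₁ : j < l)
    (h₂ : j < i) (p : Sigma fun S : X => G.obj (Glob.mk l) ⟶ S) :
    Sigma fun S : X => G.obj (Glob.mk i) ⟶ S :=
  ⟨pushout (G.map (gface true h₁) ≫ p.2) (G.map (gface false h₂)), pushout.inr _ _⟩

/-- The inclusion of the old object in the glued object. -/
def glueInit {X : Type*} [Category X] [HasPushouts X] (G : Glob ⥤ X) {l j i : ℕ} (h₁ : j < l)
    (h₂ : j < i) (p : Sigma fun S : X => G.obj (Glob.mk l) ⟶ S) : p.1 ⟶ (glueStep G h₁ h₂ p).1 :=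
  pushout.inl _ _

/-- The iterated pushout described by a table, formed from a functor `G` on the globe category,
with the inclusion of its last disc. -/
def Tbl.glue {X : Type*} [Category X] [HasPushouts X] (G : Glob ⥤ X) : {l : ℕ} → Tbl l →
    Sigma fun S : X => G.obj (Glob.mk l) ⟶ S
  | _, .base i => ⟨G.obj (Glob.mk i), 𝟙 _⟩
  | _, .snoc T _ _ h₁ h₂ => glueStep G h₁ h₂ (T.glue G)

/-- The globular sum of a table, as an iterated pushout of representable presheaves, with the
inclusion of its last disc. -/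
def Tbl.real {l : ℕ} (T : Tbl l) :
    Sigma fun X : Opposite Glob ⥤ Type => yoneda.obj (Glob.mk l) ⟶ X :=
  T.glue yoneda

/-- The dimension of a globular sum. -/
def Tbl.dim : {l : ℕ} → Tbl l → ℕ
  | _, .base i => i
  | _, .snoc T _ i _ _ => max T.dim i

/-- The category of globular sums, a full subcategory of presheaves on the globe category. -/
abbrev Theta0 : Type :=
  InducedCategory (Opposite Glob ⥤ Type) (fun S : Sigma fun l => Tbl l => S.2.real.1)

instance : SmallCategory Theta0 := InducedCategory.instCategory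

/-- The globular sum `D_n`. -/
@[implicit_reducible] def disc (n : ℕ) : Theta0 := ⟨n, .base n⟩

/-- Iterated source or target between discs. -/
def fc (b : Bool) {m n : ℕ} (h : m < n) : disc m ⟶ disc n :=
  InducedCategory.homMk (yoneda.map (gface b h))

/-- The globular sum of a table as an object of `Theta0`. -/
@[implicit_reducible] def tb {l : ℕ} (T : Tbl l) : Theta0 := ⟨l, T⟩

/-- The inclusion of the last disc. -/
def lastD {l : ℕ} (T : Tbl l) : disc l ⟶ tb T :=
  InducedCategory.homMk T.real.2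

/-- The inclusion of all discs but the last. -/
def initD {l : ℕ} (T : Tbl l) (j i : ℕ) (h₁ : j < l) (h₂ : j < i) :
    tb T ⟶ tb (T.snoc j i h₁ h₂) :=
  InducedCategory.homMk (glueInit yoneda h₁ h₂ T.real)

/-- A functor on `Theta0` preserves globular sums. -/
def PresSums {X : Type*} [Category X] (F : Theta0 ⥤ X) : Prop :=
  ∀ (l : ℕ) (T : Tbl l) (j i : ℕ) (h₁ : j < l) (h₂ : j < i),
    IsPushout (F.map (fc true h₁ ≫ lastD T)) (F.map (fc false h₂))
      (F.map (initD T j i h₁ h₂)) (F.map (lastD (T.snoc j i h₁ h₂)))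

/-- Globular extensions. -/
structure GlobExt where
  C : Type
  [cat : SmallCategory C]
  ι : Theta0 ⥤ C
  bij : Function.Bijective ι.obj
  sums : PresSums ι

attribute [instance] GlobExt.cat

/-- Maps of `E` between globular sums. -/
abbrev GlobExt.Hm (E : GlobExt) (S S' : Theta0) : Type := E.ι.obj S ⟶ E.ι.obj S'

/-- Morphisms of globular extensions under `Theta0`. -/
structure Mor (E F : GlobExt) where
  Φ : E.C ⥤ F.C
  w : E.ι ⋙ Φ = F.ι

/-- Action of a morphism of globular extensions on maps between globular sums. -/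
def Mor.onHom {E F : GlobExt} (M : Mor E F) {S S' : Theta0} (f : E.Hm S S') : F.Hm S S' :=
  eqToHom (Functor.congr_obj M.w S).symm ≫ M.Φ.map f ≫ eqToHom (Functor.congr_obj M.w S')

/-- Parallel maps `D_n ⟶ S`. -/
def Par (E : GlobExt) {n : ℕ} {S : Theta0} (f g : E.Hm (disc n) S) : Prop :=
  ∀ (m : ℕ) (h : m + 1 = n) (b : Bool),
    E.ι.map (fc b (Nat.lt_of_succ_le h.le)) ≫ f = E.ι.map (fc b (Nat.lt_of_succ_le h.le)) ≫ g

/-- `h` is a lift of the pair `f, g`. -/
def IsLift (E : GlobExt) {n : ℕ} {S : Theta0} (f g : E.Hm (disc n) S)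
    (h : E.Hm (disc (n + 1)) S) : Prop :=
  E.ι.map (fc false (Nat.lt_succ_self n)) ≫ h = f ∧ E.ι.map (fc true (Nat.lt_succ_self n)) ≫ h = g

/-- Pairs of maps `D_n ⟶ S`. -/
structure Pair (E : GlobExt) where
  pn : ℕ
  pS : Theta0
  pf : E.Hm (disc pn) pS
  pg : E.Hm (disc pn) pS

/-- `M : E ⟶ F` universally adjoins lifts of the set `A` of parallel pairs `D_n ⇉ S` with
`dim S ≤ n + 1`. -/
def FreeLifts {E F : GlobExt} (M : Mor E F) (A : Set (Pair E)) : Prop :=
  (∀ p ∈ A, Par E p.pf p.pg ∧ p.pS.2.dim ≤ p.pn + 1) ∧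
  ∃ h : ∀ p : A, F.Hm (disc (p.1.pn + 1)) p.1.pS,
    (∀ p : A, IsLift F (M.onHom p.1.pf) (M.onHom p.1.pg) (h p)) ∧
    ∀ (G : GlobExt) (N : Mor E G) (k : ∀ p : A, G.Hm (disc (p.1.pn + 1)) p.1.pS),
      (∀ p : A, IsLift G (N.onHom p.1.pf) (N.onHom p.1.pg) (k p)) →
      ∃! R : Mor F G, M.Φ ⋙ R.Φ = N.Φ ∧ ∀ p : A, R.onHom (h p) = k p

/-- Coherators for infinity-groupoids. -/
def IsCoherator (E : GlobExt) : Prop :=
  (∃ (T : ℕ → GlobExt) (M : ∀ k, Mor (T k) (T (k + 1))) (N : ∀ k, Mor (T k) E),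
    ((T 0).ι.Full ∧ (T 0).ι.Faithful) ∧
    (∀ k, ∃ A : Set (Pair (T k)), FreeLifts (M k) A) ∧
    (∀ k, (M k).Φ ⋙ (N (k + 1)).Φ = (N k).Φ) ∧
    ∀ (G : GlobExt) (N' : ∀ k, Mor (T k) G), (∀ k, (M k).Φ ⋙ (N' (k + 1)).Φ = (N' k).Φ) →
      ∃! R : Mor E G, ∀ k, (N k).Φ ⋙ R.Φ = (N' k).Φ) ∧
  ∀ (n : ℕ) (S : Theta0) (f g : E.Hm (disc n) S), Par E f g → ∃ h, IsLift E f g h

/-- Presheaves sending globular sums to iterated fibre products. -/
def IsModel (E : GlobExt) : ObjectProperty (Opposite E.C ⥤ Type) := fun X =>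
  ∀ (l : ℕ) (T : Tbl l) (j i : ℕ) (h₁ : j < l) (h₂ : j < i),
    IsPullback (X.map (E.ι.map (initD T j i h₁ h₂)).op)
      (X.map (E.ι.map (lastD (T.snoc j i h₁ h₂))).op)
      (X.map (E.ι.map (fc true h₁ ≫ lastD T)).op) (X.map (E.ι.map (fc false h₂)).op)

/-- The category of infinity-groupoids of type `E`. -/
abbrev Gpd (E : GlobExt) : Type 1 := (IsModel E).FullSubcategory

instance (E : GlobExt) : LargeCategory (Gpd E) := ObjectProperty.FullSubcategory.category _

/-- Action of a map on the sections of a presheaf. -/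
def act {B : Type} [SmallCategory B] (X : Opposite B ⥤ Type) {a b : B} (f : a ⟶ b)
    (x : X.obj (op b)) : X.obj (op a) :=
  X.map f.op x

/-- Image of a section under a map of presheaves. -/
def sect {B : Type} [SmallCategory B] {X Y : Opposite B ⥤ Type} (f : X ⟶ Y) (a : B)
    (x : X.obj (op a)) : Y.obj (op a) :=
  f.app (op a) x

/-- The `n`-cells. -/
abbrev Cell {E : GlobExt} (X : Gpd E) (n : ℕ) : Type := X.obj.obj (op (E.ι.obj (disc n)))

/-- Source (`b = false`) and target (`b = true`) of a cell. -/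
def Cell.bdry {E : GlobExt} {X : Gpd E} (b : Bool) {n : ℕ} (x : Cell X (n + 1)) : Cell X n :=
  act X.obj (E.ι.map (fc b (Nat.lt_succ_self n))) x

/-- Image of a cell under a morphism. -/
def Cell.img {E : GlobExt} {X Y : Gpd E} (f : X ⟶ Y) {n : ℕ} (x : Cell X n) : Cell Y n :=
  sect f.hom _ x

/-- There is an `(n+1)`-cell from `x` to `y`. -/
def Cell.Rel {E : GlobExt} {X : Gpd E} {n : ℕ} (x y : Cell X n) : Prop :=
  ∃ c : Cell X (n + 1), c.bdry false = x ∧ c.bdry true = y

/-- A choice of lifts of the pairs `(id, id)`, which provide the identity cells. -/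
structure Units (E : GlobExt) where
  idm : ∀ n, E.Hm (disc (n + 1)) (disc n)
  isLift : ∀ n, IsLift E (𝟙 _) (𝟙 _) (idm n)

/-- The iterated identity cell on a `0`-cell. -/
def unitCell {E : GlobExt} (u : Units E) {X : Gpd E} (x : Cell X 0) : ∀ n, Cell X n
  | 0 => x
  | n + 1 => act X.obj (u.idm n) (unitCell u x n)

theorem Cell.bdry_img {E : GlobExt} {X Y : Gpd E} (f : X ⟶ Y) (b : Bool) {n : ℕ}
    (x : Cell X (n + 1)) : (Cell.img f x).bdry b = Cell.img f (x.bdry b) :=
  (NatTrans.naturality_apply f.hom _ x).symm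

theorem Cell.Rel.img {E : GlobExt} {X Y : Gpd E} (f : X ⟶ Y) {n : ℕ} {x y : Cell X n}
    (h : x.Rel y) : (Cell.img f x).Rel (Cell.img f y) := by
  obtain ⟨c, rfl, rfl⟩ := h
  exact ⟨Cell.img f c, Cell.bdry_img f _ c, Cell.bdry_img f _ c⟩

theorem unitCell_map {E : GlobExt} (u : Units E) {X Y : Gpd E} (f : X ⟶ Y) (x : Cell X 0) :
    ∀ n, Cell.img f (unitCell u x n) = unitCell u (Cell.img f x) n
  | 0 => rfl
  | n + 1 => (NatTrans.naturality_apply f.hom _ _).trans
      (congrArg (act Y.obj (u.idm n)) (unitCell_map u f x n))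

/-- The set of components. -/
def pi0 {E : GlobExt} (X : Gpd E) : Type := Quot (Cell.Rel (X := X) (n := 0))

/-- The `(n+1)`-cells from the iterated identity `n`-cell on `x` to itself. -/
def Loops {E : GlobExt} (u : Units E) {X : Gpd E} (x : Cell X 0) (n : ℕ) : Type :=
  {a : Cell X (n + 1) // a.bdry false = unitCell u x n ∧ a.bdry true = unitCell u x n}

/-- The homotopy group of degree `n + 1`, as a set. -/
def piS {E : GlobExt} (u : Units E) {X : Gpd E} (x : Cell X 0) (n : ℕ) : Type :=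
  Quot (fun a b : Loops u x n => a.1.Rel b.1)

/-- Induced map on components. -/
def pi0Map {E : GlobExt} {X Y : Gpd E} (f : X ⟶ Y) : pi0 X → pi0 Y :=
  Quot.map (Cell.img f) (fun _ _ h => h.img f)

/-- Induced map on homotopy groups. -/
def piSMap {E : GlobExt} (u : Units E) {X Y : Gpd E} (f : X ⟶ Y) (x : Cell X 0) (n : ℕ) :
    piS u x n → piS u (Cell.img f x) n :=
  Quot.map (fun a => ⟨Cell.img f a.1,
    by rw [Cell.bdry_img, a.2.1, unitCell_map], by rw [Cell.bdry_img, a.2.2, unitCell_map]⟩)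
    (fun _ _ h => h.img f)

/-- Weak equivalences of infinity-groupoids. -/
def WEq {E : GlobExt} (u : Units E) : MorphismProperty (Gpd E) := fun _ _ f =>
  Function.Bijective (pi0Map f) ∧ ∀ x n, Function.Bijective (piSMap u f x n)

/-- The closed `n`-disc. -/
abbrev Disc (n : ℕ) : Type := Metric.closedBall (0 : EuclideanSpace ℝ (Fin n)) 1

/-- The lower (`b = false`) and upper (`b = true`) hemisphere, as points of Euclidean space. -/
def hemi (b : Bool) {n : ℕ} (x : Disc n) : EuclideanSpace ℝ (Fin (n + 1)) :=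
  WithLp.toLp 2 (Fin.cons ((if b then 1 else -1) * √(1 - ‖x.1‖ ^ 2)) (WithLp.ofLp x.1))

/-- The closed `n`-disc as a space. -/
def discTop (n : ℕ) : TopCat.{0} := TopCat.of (Disc n)

/-- `y` is the image of `x` in the lower or upper hemisphere. -/
def IsHemi (b : Bool) {n : ℕ} (x : discTop n) (y : discTop (n + 1)) : Prop := y.1 = hemi b x

/-- The underlying continuous map. -/
def cgMap {X Y : CompactlyGenerated.{0, 0}} (f : X ⟶ Y) : ContinuousMap X Y := f.hom.hom

/-- Disc functors. -/
def IsDiscFunctor {E : GlobExt} (D : E.C ⥤ CompactlyGenerated.{0, 0}) : Prop :=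
  PresSums (E.ι ⋙ D) ∧
  ∃ φ : ∀ n, Homeomorph (D.obj (E.ι.obj (disc n))) (discTop n),
    ∀ (n : ℕ) (b : Bool) (x : D.obj (E.ι.obj (disc n))),
      IsHemi b ((φ n).toFun x)
        ((φ (n + 1)).toFun ((cgMap (D.map (E.ι.map (fc b (Nat.lt_succ_self n))))).toFun x))

/-- The functor `Y ↦ Hom(D(-), Y)` to presheaves. -/
def homFrom {B : Type} [SmallCategory B] (D : B ⥤ CompactlyGenerated.{0, 0}) :
    CompactlyGenerated.{0, 0} ⥤ (Opposite B ⥤ Type) :=
  yoneda ⋙ (Functor.whiskeringLeft _ _ _).obj D.op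

theorem isModel_homFrom {E : GlobExt} (D : E.C ⥤ CompactlyGenerated.{0, 0})
    (hD : IsDiscFunctor D) (Y : CompactlyGenerated.{0, 0}) : IsModel E ((homFrom D).obj Y) :=
  fun l T j i h₁ h₂ => (hD.1 l T j i h₁ h₂).op.flip.map (yoneda.obj Y)

/-- The fundamental infinity-groupoid functor `Y ↦ Hom(D(-), Y)`. -/
def PiInf {E : GlobExt} (D : E.C ⥤ CompactlyGenerated.{0, 0}) (hD : IsDiscFunctor D) :
    CompactlyGenerated.{0, 0} ⥤ Gpd E :=
  (IsModel E).lift (homFrom D) (isModel_homFrom D hD)

/-- Induced map on path components. -/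
def topPi0Map {X Y : Type} [TopologicalSpace X] [TopologicalSpace Y]
    (f : ContinuousMap X Y) :
    ZerothHomotopy X → ZerothHomotopy Y :=
  Quotient.map f (fun _ _ h => Joined.map h f.continuous)

/-- Induced map on homotopy groups of spaces. -/
def topPiMap {X Y : Type} [TopologicalSpace X] [TopologicalSpace Y]
    (f : ContinuousMap X Y) (x : X) (n : ℕ) : HomotopyGroup.Pi n X x → HomotopyGroup.Pi n Y (f x) :=
  Quotient.map (fun a => ⟨f.comp a.1, fun y hy => congrArg f (a.2 y hy)⟩)
    (fun _ _ h => ContinuousMap.HomotopicRel.comp_continuousMap h f)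

/-- Weak homotopy equivalences. -/
def WHE : MorphismProperty CompactlyGenerated.{0, 0} := fun _ _ f =>
  Function.Bijective (topPi0Map (cgMap f)) ∧
    ∀ x n, Function.Bijective (topPiMap (cgMap f) x (n + 1))

/-- `F` sends `W` to `W'` and induces an equivalence of the localized categories. -/
def InducesEquiv {B D : Type 1} [LargeCategory B] [LargeCategory D] (W : MorphismProperty B)
    (W' : MorphismProperty D) (F : B ⥤ D) : Prop :=
  W ≤ W'.inverseImage F ∧
  ∃ h : W.IsInvertedBy (F ⋙ W'.Q), (Localization.Construction.lift (F ⋙ W'.Q) h).IsEquivalence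

/-- The homotopy hypothesis for the globular extension `E`. -/
def HomotopyHypothesis (E : GlobExt) : Prop :=
  ∃ (D : E.C ⥤ CompactlyGenerated.{0, 0}) (hD : IsDiscFunctor D), ∀ u : Units E,
    InducesEquiv WHE (WEq u) (PiInf D hD)

end Vale.Agent.P259
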